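import Vale.Agent.P280.S.H348.Gen

/-! P280 S: the Newton polygon of a curve. -/

open Polynomial

namespace Vale.Agent.P280.S.H348

variable {R : Type} [CommRing R] [Algebra ℂ R] {𝒜 : ℕ → Submodule ℂ R} [GradedAlgebra 𝒜]
variable {K : Type} [Field K] [Algebra ℂ K]

/-- `m i` is an entry of largest valuation of the `i`-th coefficient vector of `ψ`. -/
structure Max (P : Place K) (S : Finset R) (ψ : R →ₐ[ℂ] K[X]) (m : ℕ → K) : Prop where
  le : ∀ i, ∀ s ∈ S, P.A.valuation ((ψ s).coeff i) ≤ P.A.valuation (m i)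
  ex : ∀ i, ∃ s ∈ S, (ψ s).coeff i = m i

theorem exists_max (P : Place K) {S : Finset R} (hne : S.Nonempty) (ψ : R →ₐ[ℂ] K[X]) :
    ∃ m, Max P S ψ m := by
  have : ∀ i, ∃ s ∈ S, ∀ t ∈ S, P.A.valuation ((ψ t).coeff i) ≤ P.A.valuation ((ψ s).coeff i) :=
    fun i => S.exists_max_image (fun s => P.A.valuation ((ψ s).coeff i)) hne
  choose s hs hs' using this
  exact ⟨fun i => (ψ (s i)).coeff i, fun i t ht => hs' i t ht, fun i => ⟨s i, hs i, rfl⟩⟩

theorem pow_aux {F : Type*} [Field F] (x y c : F) (a d : ℕ) :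
    x ^ d * (y ^ (d * a) * c) = (x * y ^ a) ^ d * c := by
  rw [mul_pow, ← pow_mul, mul_comm a d, mul_assoc]

theorem inv_aux {F : Type*} [Field F] {c : F} (hc : c ≠ 0) (z : F) (d : ℕ) :
    c⁻¹ ^ d * (c ^ d * z) = z := by
  rw [← mul_assoc, ← mul_pow, inv_mul_cancel₀ hc, one_pow, one_mul]

/-- Substitution `X ↦ ρ X`. -/
noncomputable def scaleX (ρ : K) : K[X] →ₐ[ℂ] K[X] :=
  (Polynomial.aeval (R := K) (C ρ * X : K[X])).restrictScalars ℂ

theorem coeff_scaleX (ρ : K) (p : K[X]) (i : ℕ) : (scaleX ρ p).coeff i = ρ ^ i * p.coeff i := by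
  have h1 : scaleX ρ p = p.comp (C ρ * X) := rfl
  rw [h1, comp_C_mul_X_coeff, mul_comm]

variable {P : Place K} {S : Finset R} {ψ : R →ₐ[ℂ] K[X]} {m : ℕ → K}

/-- Reduction. -/
theorem reduction (hS : ∀ s ∈ S, s ∈ 𝒜 1) (hgen : Algebra.adjoin ℂ (S : Set R) = ⊤)
    (hm : Max P S ψ m) {γ ρ : K} (h1 : ∀ i, P.A.valuation (γ * ρ ^ i * m i) ≤ 1) :
    ∃ φ : R →ₐ[ℂ] P.k[X], ∀ d, ∀ h ∈ 𝒜 d, ∀ i, γ ^ d * (ρ ^ i * (ψ h).coeff i) ∈ P.A ∧
      (φ h).coeff i = P.red (γ ^ d * (ρ ^ i * (ψ h).coeff i)) := by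
  set ψ' : R →ₐ[ℂ] K[X] := twist 𝒜 (C γ) ((scaleX ρ).comp ψ) with hψ'
  have hc : ∀ d, ∀ h ∈ 𝒜 d, ∀ i, (ψ' h).coeff i = γ ^ d * (ρ ^ i * (ψ h).coeff i) := by
    intro d h hh i
    rw [hψ', twist_apply 𝒜 hh, ← C_pow, coeff_C_mul, AlgHom.comp_apply, coeff_scaleX]
  have hint : ∀ h : R, ψ' h ∈ P.int := by
    have h2 : (⊤ : Subalgebra ℂ R) ≤ P.int.comap ψ' := by
      rw [← hgen]
      refine Algebra.adjoin_le fun s hs i => ?_
      have hs' : s ∈ S := hs
      change (ψ' s).coeff i ∈ P.A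
      rw [hc 1 s (hS s hs') i, pow_one, P.mem_iff]
      refine le_trans ?_ (h1 i)
      rw [map_mul, map_mul, map_mul, map_mul, mul_assoc]
      exact mul_le_mul_right (mul_le_mul_right (hm.le i s hs') _) _
    exact fun h => h2 Algebra.mem_top
  refine ⟨P.redHom.comp (ψ'.codRestrict P.int hint), fun d h hh i => ⟨?_, ?_⟩⟩
  · rw [← hc d h hh i]
    exact hint h i
  · rw [AlgHom.comp_apply, Place.coeff_redHom, ← hc d h hh i]
    rfl

/-- The reduction, divided by a power of the variable. -/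
theorem low (hS : ∀ s ∈ S, s ∈ 𝒜 1) (hgen : Algebra.adjoin ℂ (S : Set R) = ⊤)
    (hm : Max P S ψ m) {γ ρ : K} (h1 : ∀ i, P.A.valuation (γ * ρ ^ i * m i) ≤ 1) {a : ℕ}
    (h2 : ∀ i < a, P.A.valuation (γ * ρ ^ i * m i) < 1) :
    ∃ φ : R →ₐ[ℂ] P.k[X], ∀ d, ∀ h ∈ 𝒜 d, ∀ i,
      (φ h).coeff i = P.red (γ ^ d * (ρ ^ (d * a + i) * (ψ h).coeff (d * a + i))) := by
  obtain ⟨φ, hφ⟩ := reduction hS hgen hm h1
  have hsmall : ∀ s ∈ S, ∀ i, P.A.valuation (γ * ρ ^ i * m i) < 1 → (φ s).coeff i = 0 := by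
    intro s hs i hi
    rw [(hφ 1 s (hS s hs) i).2, pow_one]
    apply P.red_eq_zero
    refine lt_of_le_of_lt ?_ hi
    rw [map_mul, map_mul, map_mul, map_mul, mul_assoc]
    exact mul_le_mul_right (mul_le_mul_right (hm.le i s hs) _) _
  have hdvd : ∀ d, ∀ h ∈ 𝒜 d, (X ^ a : P.k[X]) ^ d ∣ φ h :=
    dvd_of_gens (T := (S : Set R)) hS hgen φ fun s hs => by
      rw [X_pow_dvd_iff]
      intro i hi
      exact hsmall s hs i (h2 i hi)
  obtain ⟨φ₁, hφ₁⟩ := exists_divide 𝒜 φ (pow_ne_zero a X_ne_zero) hdvd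
  refine ⟨φ₁, fun d h hh i => ?_⟩
  rw [← (hφ d h hh (d * a + i)).2, hφ₁ d h hh, ← pow_mul, mul_comm a d, add_comm (d * a) i,
    coeff_X_pow_mul]

/-- An edge of the Newton polygon gives a curve. -/
theorem arc (hS : ∀ s ∈ S, s ∈ 𝒜 1) (hgen : Algebra.adjoin ℂ (S : Set R) = ⊤)
    (hm : Max P S ψ m) {γ ρ : K} (h1 : ∀ i, P.A.valuation (γ * ρ ^ i * m i) ≤ 1) {a b : ℕ}
    (hab : a ≤ b) (h2 : ∀ i < a, P.A.valuation (γ * ρ ^ i * m i) < 1)
    (h3 : ∀ i, b < i → P.A.valuation (γ * ρ ^ i * m i) < 1) :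
    ∃ φ : R →ₐ[ℂ] P.k[X], Deg 𝒜 (b - a) φ ∧ ∀ d, ∀ h ∈ 𝒜 d, ∀ i,
      (φ h).coeff i = P.red (γ ^ d * (ρ ^ (d * a + i) * (ψ h).coeff (d * a + i))) := by
  obtain ⟨φ, hφ⟩ := low hS hgen hm h1 h2
  refine ⟨φ, natDegree_of_gens (T := (S : Set R)) hS hgen φ fun s hs => ?_, hφ⟩
  rw [natDegree_le_iff_coeff_eq_zero]
  intro i hi
  rw [hφ 1 s (hS s hs), pow_one, one_mul]
  apply P.red_eq_zero
  refine lt_of_le_of_lt ?_ (h3 (a + i) (by omega))
  rw [map_mul, map_mul, map_mul, map_mul, mul_assoc]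
  exact mul_le_mul_right (mul_le_mul_right (hm.le (a + i) s hs) _) _

/-- The point of a vertex of the Newton polygon. -/
theorem vertex (hS : ∀ s ∈ S, s ∈ 𝒜 1) (hgen : Algebra.adjoin ℂ (S : Set R) = ⊤)
    (hm : Max P S ψ m) {γ ρ : K} (h1 : ∀ i, P.A.valuation (γ * ρ ^ i * m i) ≤ 1) {a : ℕ}
    (h2 : ∀ i < a, P.A.valuation (γ * ρ ^ i * m i) < 1)
    (h3 : P.A.valuation (γ * ρ ^ a * m a) = 1) :
    ∃ q : R →ₐ[ℂ] P.k, NV 𝒜 q ∧ ∀ d, ∀ h ∈ 𝒜 d,
      q h = P.red ((γ * ρ ^ a) ^ d * (ψ h).coeff (d * a)) := by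
  obtain ⟨φ, hφ⟩ := low hS hgen hm h1 h2
  let ev : P.k[X] →ₐ[ℂ] P.k := (Polynomial.aeval (R := P.k) (0 : P.k)).restrictScalars ℂ
  have hev : ∀ p : P.k[X], ev p = p.coeff 0 := by
    intro p
    rw [coeff_zero_eq_eval_zero]
    change Polynomial.aeval (0 : P.k) p = _
    rw [Polynomial.coe_aeval_eq_eval]
  have hq : ∀ d, ∀ h ∈ 𝒜 d, (ev.comp φ) h = P.red ((γ * ρ ^ a) ^ d * (ψ h).coeff (d * a)) := by
    intro d h hh
    rw [AlgHom.comp_apply, hev, hφ d h hh 0, add_zero]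
    congr 1
    rw [mul_pow, ← pow_mul, mul_comm a d]
    ring
  refine ⟨ev.comp φ, ?_, hq⟩
  obtain ⟨s, hs, hsm⟩ := hm.ex a
  refine ⟨s, hS s hs, ?_⟩
  rw [hq 1 s (hS s hs), pow_one, one_mul, hsm]
  exact P.red_ne_zero h3

/-- **Lemma A.** -/
theorem newton [IsAlgClosed K] (hS : ∀ s ∈ S, s ∈ 𝒜 1)
    (hgen : Algebra.adjoin ℂ (S : Set R) = ⊤) (hm : Max P S ψ m) {δ : K}
    (hδ : P.A.valuation (δ * m 0) = 1) {q₀ : R →ₐ[ℂ] P.k} (hq₀ : NV 𝒜 q₀)
    (hq : ∃ c : P.k, c ≠ 0 ∧ ∀ d, ∀ h ∈ 𝒜 d, q₀ h = c ^ d * P.red (δ ^ d * (ψ h).coeff 0)) :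
    ∀ (a : ℕ) (γ ρ : K), γ ≠ 0 → ρ ≠ 0 → (∀ i, P.A.valuation (γ * ρ ^ i * m i) ≤ 1) →
      (∀ i < a, P.A.valuation (γ * ρ ^ i * m i) < 1) → P.A.valuation (γ * ρ ^ a * m a) = 1 →
      ∃ n ≤ a, ∃ q : R →ₐ[ℂ] P.k, Ch 𝒜 P.k n q₀ q ∧ ∃ c : P.k, c ≠ 0 ∧ ∀ d, ∀ h ∈ 𝒜 d,
        q h = c ^ d * P.red ((γ * ρ ^ a) ^ d * (ψ h).coeff (d * a)) := by
  intro a
  induction a using Nat.strong_induction_on with
  | _ a ih =>
    intro γ ρ hγ hρ h1 h2 h3
    rcases Nat.eq_zero_or_pos a with ha | ha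
    · subst ha
      refine ⟨0, le_rfl, q₀, Ch.refl q₀ hq₀, ?_⟩
      obtain ⟨c, hc, hqc⟩ := hq
      rw [pow_zero, mul_one] at h3
      have hm0 : P.A.valuation (m 0) ≠ 0 := by
        intro h0
        rw [map_mul, h0, mul_zero] at h3
        exact zero_ne_one h3
      have hδγ : P.A.valuation (δ / γ) = 1 := by
        rw [map_mul] at h3 hδ
        rw [map_div₀]
        have h4 : P.A.valuation δ = P.A.valuation γ := by
          apply mul_right_cancel₀ hm0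
          rw [hδ, h3]
        rw [h4]
        exact div_self ((Valuation.ne_zero_iff _).2 hγ)
      have hmem : δ / γ ∈ P.A := P.mem_iff.2 hδγ.le
      refine ⟨c * P.red (δ / γ), mul_ne_zero hc (P.red_ne_zero hδγ), fun d h hh => ?_⟩
      obtain ⟨φ, hφ⟩ := reduction (𝒜 := 𝒜) hS hgen hm h1
      have h5 := (hφ d h hh 0).1
      rw [pow_zero, one_mul] at h5
      rw [hqc d h hh, mul_pow, pow_zero, mul_one, mul_zero, mul_assoc, ← P.red_pow hmem,
        ← P.red_mul (pow_mem hmem d) h5, ← mul_assoc, ← mul_pow, div_mul_cancel₀ δ hγ]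
    · -- the slope
      have hm0 : m 0 ≠ 0 := by
        rintro h0
        rw [h0, mul_zero, map_zero] at hδ
        exact zero_ne_one hδ
      have hma : γ * ρ ^ a * m a ≠ 0 := by
        intro h0
        rw [h0, map_zero] at h3
        exact zero_ne_one h3
      have hroot : ∀ i, ∃ r : K, i < a → r ^ (a - i) = γ * ρ ^ i * m i := by
        intro i
        by_cases hi : i < a
        · obtain ⟨r, hr⟩ := IsAlgClosed.exists_pow_nat_eq (γ * ρ ^ i * m i) (n := a - i) (by omega)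
          exact ⟨r, fun _ => hr⟩
        · exact ⟨0, fun h => absurd h hi⟩
      choose r hr using hroot
      obtain ⟨i₀, hi₀, hmax⟩ := (Finset.range a).exists_max_image (fun i => P.A.valuation (r i))
        ⟨0, Finset.mem_range.2 ha⟩
      rw [Finset.mem_range] at hi₀
      set σ := r i₀ with hσ
      have hv : ∀ i < a, P.A.valuation (γ * ρ ^ i * m i) ≤ P.A.valuation σ ^ (a - i) := by
        intro i hi
        rw [← hr i hi, map_pow]
        exact pow_le_pow_left' (hmax i (Finset.mem_range.2 hi)) _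
      have hσ0 : σ ≠ 0 := by
        intro h0
        have h4 := hv 0 ha
        rw [h0, map_zero, zero_pow (by omega), pow_zero, mul_one] at h4
        have h5 : P.A.valuation (γ * m 0) = 0 := le_antisymm h4 zero_le
        exact mul_ne_zero hγ hm0 ((Valuation.zero_iff _).1 h5)
      have hσv : P.A.valuation σ ≠ 0 := (Valuation.ne_zero_iff _).2 hσ0
      have hσ1 : P.A.valuation σ < 1 := by
        by_contra hge
        push Not at hge
        have h4 := h2 i₀ hi₀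
        rw [← hr i₀ hi₀, map_pow] at h4
        exact absurd h4 (not_lt.2 (one_le_pow₀ hge))
      set ρ' := ρ * σ with hρ'
      set γ' := γ / σ ^ a with hγ'
      have hγ'0 : γ' ≠ 0 := div_ne_zero hγ (pow_ne_zero a hσ0)
      have hρ'0 : ρ' ≠ 0 := mul_ne_zero hρ hσ0
      have hval : ∀ i, P.A.valuation (γ' * ρ' ^ i * m i) * P.A.valuation σ ^ a =
          P.A.valuation (γ * ρ ^ i * m i) * P.A.valuation σ ^ i := by
        intro i
        rw [← map_pow, ← map_pow, ← map_mul, ← map_mul]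
        congr 1
        rw [hγ', hρ', mul_pow]
        field_simp
      have hge : ∀ i, a < i → P.A.valuation (γ' * ρ' ^ i * m i) < 1 := by
        intro i hi
        have h4 := hval i
        have h5 : P.A.valuation σ ^ i = P.A.valuation σ ^ (i - a) * P.A.valuation σ ^ a := by
          rw [← pow_add]
          congr 1
          omega
        rw [h5, ← mul_assoc] at h4
        have h6 := mul_right_cancel₀ (pow_ne_zero a hσv) h4
        rw [h6]
        calc P.A.valuation (γ * ρ ^ i * m i) * P.A.valuation σ ^ (i - a)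
            ≤ 1 * P.A.valuation σ ^ (i - a) := mul_le_mul_left (h1 i) _
          _ < 1 := by
            rw [one_mul]
            exact pow_lt_one' hσ1 (by omega)
      have heq : P.A.valuation (γ' * ρ' ^ a * m a) = 1 := by
        have h4 := hval a
        rw [h3, one_mul] at h4
        exact mul_right_cancel₀ (pow_ne_zero a hσv) (by rw [h4, one_mul])
      have hlt : ∀ i < a, P.A.valuation (γ' * ρ' ^ i * m i) ≤ 1 := by
        intro i hi
        have h4 := hval i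
        have h5 : P.A.valuation (γ' * ρ' ^ i * m i) * P.A.valuation σ ^ a ≤
            1 * P.A.valuation σ ^ a := by
          rw [h4, one_mul]
          calc P.A.valuation (γ * ρ ^ i * m i) * P.A.valuation σ ^ i
              ≤ P.A.valuation σ ^ (a - i) * P.A.valuation σ ^ i := mul_le_mul_left (hv i hi) _
            _ = P.A.valuation σ ^ a := by
              rw [← pow_add]
              congr 1
              omega
        exact le_of_mul_le_mul_right h5 (zero_lt_iff.2 (pow_ne_zero a hσv))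
      have hi₀eq : P.A.valuation (γ' * ρ' ^ i₀ * m i₀) = 1 := by
        have h4 := hval i₀
        rw [← hr i₀ hi₀, map_pow, ← hσ, ← pow_add, Nat.sub_add_cancel hi₀.le] at h4
        exact mul_right_cancel₀ (pow_ne_zero a hσv) (by rw [h4, one_mul])
      have h1' : ∀ i, P.A.valuation (γ' * ρ' ^ i * m i) ≤ 1 := by
        intro i
        rcases lt_trichotomy i a with h | h | h
        · exact hlt i h
        · rw [h, heq]
        · exact (hge i h).le
      classical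
      have hex : ∃ i, P.A.valuation (γ' * ρ' ^ i * m i) = 1 := ⟨i₀, hi₀eq⟩
      set a₁ := Nat.find hex with ha₁
      have ha₁eq : P.A.valuation (γ' * ρ' ^ a₁ * m a₁) = 1 := Nat.find_spec hex
      have ha₁lt : a₁ < a := lt_of_le_of_lt (Nat.find_min' hex hi₀eq) hi₀
      have ha₁min : ∀ i < a₁, P.A.valuation (γ' * ρ' ^ i * m i) < 1 := fun i hi =>
        lt_of_le_of_ne (h1' i) (Nat.find_min hex hi)
      obtain ⟨n₁, hn₁, q₁, hch, c, hc, hq₁⟩ := ih a₁ ha₁lt γ' ρ' hγ'0 hρ'0 h1' ha₁min ha₁eq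
      obtain ⟨φ, hdeg, hφ⟩ := arc (𝒜 := 𝒜) hS hgen hm h1' ha₁lt.le ha₁min hge
      obtain ⟨q, hqnv, hqv⟩ := vertex (𝒜 := 𝒜) hS hgen hm h1 h2 h3
      refine ⟨n₁ + (a - a₁), by omega, q, Ch.step n₁ (a - a₁) q₀ q₁ q φ hch hqnv hdeg ?_ ?_,
        1, one_ne_zero, fun d h hh => by rw [one_pow, one_mul, hqv d h hh]⟩
      · refine ⟨c⁻¹, inv_ne_zero hc, fun d h hh => ?_⟩
        rw [hφ d h hh 0, add_zero, hq₁ d h hh, inv_aux hc, pow_aux]
      · refine ⟨1, one_ne_zero, fun d h hh => ?_⟩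
        have h7 : d * a₁ + d * (a - a₁) = d * a := by
          rw [← mul_add]
          congr 1
          omega
        rw [hφ d h hh, h7, one_pow, one_mul, hqv d h hh]
        congr 1
        have h8 : γ' * ρ' ^ a = γ * ρ ^ a := by
          rw [hγ', hρ', mul_pow]
          field_simp
        rw [← h8, pow_aux]

end Vale.Agent.P280.S.H348
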