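import Vale.Agent.P280.S.H348.Fin
import Vale.Agent.P280.S.H145.Generic
import Vale.Agent.P280.S.H847.Conv
import Vale.Agent.P280.S.H265.Main0

/-!
P280, Theorem S: assembly.
-/

namespace Vale.Agent.P280.S.H348

open Polynomial

variable {R : Type} [CommRing R] [Algebra ℂ R] {𝒜 : ℕ → Submodule ℂ R} [GradedAlgebra 𝒜]

/-- **Theorem S.** -/
theorem homogeneous_of_isGood (hX : IsProjectiveManifold 𝒜) (hN : NefOnRationalCurves 𝒜)
    {x : R →ₐ[ℂ] ℂ} {J : Set R} {e : ℕ} (hG : IsGood 𝒜 x J e) :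
    IsHomogeneousManifold 𝒜 ∧ IsTransitive 𝒜 := by
  have hW : Good 𝒜 x J e := good_of_isGood hX.gen hG
  refine H265.homogeneous_of_univ hX hN hW ?_
  intro _
  obtain ⟨φ₀, hφ₀⟩ := exists_sol_frac hX.finiteType hX.gen hW
  exact exists_univ hX hW hφ₀

end Vale.Agent.P280.S.H348
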