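import Vale.Agent.P280.S.H348.Newton
import Vale.Agent.P280.S.H980.Tools
import Vale.Agent.P280.S.H145.Uniq

/-! P280 S: the coefficients of the universal curve are integral. -/

open Polynomial

namespace Vale.Agent.P280.S.H348

variable {R : Type} [CommRing R] [Algebra ℂ R] {𝒜 : ℕ → Submodule ℂ R} [GradedAlgebra 𝒜]
variable {K : Type} [Field K] [Algebra ℂ K]

theorem Place.valuation_const (P : Place K) {c : ℂ} (hc : c ≠ 0) :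
    P.A.valuation (algebraMap ℂ K c) = 1 := by
  apply le_antisymm (P.mem_iff.1 (P.hC c))
  have h1 := P.mem_iff.1 (P.hC c⁻¹)
  rw [map_inv₀, map_inv₀] at h1
  have h2 : P.A.valuation (algebraMap ℂ K c) ≠ 0 := by
    rw [Valuation.ne_zero_iff]
    exact (map_ne_zero (algebraMap ℂ K)).2 hc
  exact (inv_le_one₀ (zero_lt_iff.2 h2)).1 h1

/-- Chains, with the starting point rescaled. -/
theorem scale_left {k : Type} [Field k] [Algebra ℂ k] {n : ℕ} {p y : R →ₐ[ℂ] k}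
    (h : Ch 𝒜 k n p y) {p' : R →ₐ[ℂ] k} (hp' : NV 𝒜 p')
    (hs : ∃ c : k, c ≠ 0 ∧ ∀ d, ∀ h ∈ 𝒜 d, p' h = c ^ d * p h) :
    ∃ y' : R →ₐ[ℂ] k, (∃ c : k, c ≠ 0 ∧ ∀ d, ∀ h ∈ 𝒜 d, y' h = c ^ d * y h) ∧
      Ch 𝒜 k n p' y' := by
  induction h with
  | refl q hq => exact ⟨p', hs, Ch.refl p' hp'⟩
  | step n' e p1 q1 q2 ψ hch hnv hd hst he ih =>
    obtain ⟨y1, ⟨c, hc, hc1⟩, hch1⟩ := ih hs
    refine ⟨q2, ⟨1, one_ne_zero, fun d h _ => by rw [one_pow, one_mul]⟩,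
      Ch.step n' e p' y1 q2 ψ hch1 hnv hd ?_ he⟩
    obtain ⟨b, hb, hb1⟩ := hst
    refine ⟨b * c⁻¹, mul_ne_zero hb (inv_ne_zero hc), fun d h hh => ?_⟩
    rw [hb1 d h hh, hc1 d h hh, mul_pow, mul_assoc, inv_aux hc]

theorem nv_gens {k : Type} [Field k] [Algebra ℂ k] {S : Finset R} (hS : ∀ s ∈ S, s ∈ 𝒜 1)
    (hgen : Algebra.adjoin ℂ (S : Set R) = ⊤) {q : R →ₐ[ℂ] k} (hq : NV 𝒜 q) :
    ∃ s ∈ S, q s ≠ 0 := by
  by_contra hcon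
  push Not at hcon
  obtain ⟨h, hh, hne⟩ := hq
  apply hne
  have key : ∀ x, Mon (S : Set R) 1 x → q x = 0 := by
    intro x hx
    cases hx with
    | mul hx hs => rw [map_mul, hcon _ hs, mul_zero]
  refine Submodule.span_induction (p := fun x _ => q x = 0) key (map_zero q) ?_ ?_
    (mem_span_mon (T := (S : Set R)) hS hgen hh)
  · intro x y _ _ hx hy
    rw [map_add, hx, hy, add_zero]
  · intro c x _ hx
    rw [map_smul, hx, smul_zero]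

/-- Reduction of a point. -/
theorem reducePt (P : Place K) {S : Finset R} (hS : ∀ s ∈ S, s ∈ 𝒜 1)
    (hgen : Algebra.adjoin ℂ (S : Set R) = ⊤) {q : R →ₐ[ℂ] K} (hq : NV 𝒜 q) :
    ∃ (δ : K) (q₀ : R →ₐ[ℂ] P.k), δ ≠ 0 ∧ (∀ s ∈ S, P.A.valuation (δ * q s) ≤ 1) ∧
      (∃ s ∈ S, P.A.valuation (δ * q s) = 1) ∧ NV 𝒜 q₀ ∧
      ∀ d, ∀ h ∈ 𝒜 d, q₀ h = P.red (δ ^ d * q h) := by
  obtain ⟨s₁, hs₁, hne₁⟩ := nv_gens hS hgen hq
  set ψ : R →ₐ[ℂ] K[X] := ((Algebra.ofId K K[X]).restrictScalars ℂ).comp q with hψ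
  have hc : ∀ h i, (ψ h).coeff i = if i = 0 then q h else 0 := by
    intro h i
    have : ψ h = C (q h) := rfl
    rw [this, coeff_C]
  obtain ⟨m, hm⟩ := exists_max P ⟨s₁, hs₁⟩ ψ
  have hm0 : ∀ i, i ≠ 0 → m i = 0 := by
    intro i hi
    obtain ⟨s, hs, hsm⟩ := hm.ex i
    rw [← hsm, hc, if_neg hi]
  obtain ⟨s₀, hs₀, hsm₀⟩ := hm.ex 0
  rw [hc, if_pos rfl] at hsm₀
  have hm00 : m 0 ≠ 0 := by
    intro h0
    have h1 := hm.le 0 s₁ hs₁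
    rw [h0, map_zero, hc, if_pos rfl] at h1
    exact hne₁ ((Valuation.zero_iff _).1 (le_antisymm h1 zero_le))
  have hv : P.A.valuation ((m 0)⁻¹ * m 0) = 1 := by
    rw [inv_mul_cancel₀ hm00, map_one]
  have hle : ∀ i, P.A.valuation ((m 0)⁻¹ * (1 : K) ^ i * m i) ≤ 1 := by
    intro i
    rw [one_pow, mul_one]
    by_cases hi : i = 0
    · rw [hi, hv]
    · rw [hm0 i hi, mul_zero, map_zero]
      exact zero_le
  obtain ⟨q₀, hq₀, hq₀'⟩ := vertex (𝒜 := 𝒜) hS hgen hm (γ := (m 0)⁻¹) (ρ := 1) hle (a := 0)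
    (fun i hi => absurd hi (Nat.not_lt_zero i)) (by rw [pow_zero, mul_one, hv])
  refine ⟨(m 0)⁻¹, q₀, inv_ne_zero hm00, fun s hs => ?_, ⟨s₀, hs₀, by rw [hsm₀, hv]⟩, hq₀,
    fun d h hh => ?_⟩
  · rw [map_mul]
    have h1 := hm.le 0 s hs
    rw [hc, if_pos rfl] at h1
    calc P.A.valuation (m 0)⁻¹ * P.A.valuation (q s)
        ≤ P.A.valuation (m 0)⁻¹ * P.A.valuation (m 0) := mul_le_mul_right h1 _
      _ = 1 := by rw [← map_mul, hv]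
  · rw [hq₀' d h hh, pow_zero, mul_one, mul_zero, hc, if_pos rfl]

/-- Lemma A, from a starting point over `K`. -/
theorem newtonFrom [IsAlgClosed K] (P : Place K) {S : Finset R} (hS : ∀ s ∈ S, s ∈ 𝒜 1)
    (hgen : Algebra.adjoin ℂ (S : Set R) = ⊤) {ψ : R →ₐ[ℂ] K[X]} {p₀ : R →ₐ[ℂ] K}
    (hp₀ : NV 𝒜 p₀) (hst : Starts 𝒜 ψ p₀) {m : ℕ → K} (hm : Max P S ψ m) {γ : K} (hγ : γ ≠ 0)
    (h1 : ∀ i, P.A.valuation (γ * m i) ≤ 1) {a : ℕ} (h2 : ∀ i < a, P.A.valuation (γ * m i) < 1)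
    (h3 : P.A.valuation (γ * m a) = 1) :
    ∃ (δ : K) (q₀ q : R →ₐ[ℂ] P.k) (n : ℕ), (∃ s ∈ S, P.A.valuation (δ * p₀ s) = 1) ∧
      (∀ d, ∀ h ∈ 𝒜 d, q₀ h = P.red (δ ^ d * p₀ h)) ∧ n ≤ a ∧ Ch 𝒜 P.k n q₀ q ∧
      ∃ c : P.k, c ≠ 0 ∧ ∀ d, ∀ h ∈ 𝒜 d, q h = c ^ d * P.red (γ ^ d * (ψ h).coeff (d * a)) := by
  obtain ⟨δ, q₀, hδ, hle, ⟨s₀, hs₀, heq⟩, hnv, hq₀⟩ := reducePt P hS hgen hp₀
  obtain ⟨c, hc, hcψ⟩ := hst
  have hδm : P.A.valuation (δ / c * m 0) = 1 := by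
    apply le_antisymm
    · obtain ⟨s, hs, hsm⟩ := hm.ex 0
      rw [← hsm, hcψ 1 s (hS s hs), pow_one, ← mul_assoc, div_mul_cancel₀ δ hc]
      exact hle s hs
    · have h4 := hm.le 0 s₀ hs₀
      rw [hcψ 1 s₀ (hS s₀ hs₀), pow_one] at h4
      rw [← heq, map_mul (P.A.valuation) (δ / c) (m 0)]
      calc P.A.valuation (δ * p₀ s₀) = P.A.valuation (δ / c) * P.A.valuation (c * p₀ s₀) := by
            rw [← map_mul, ← mul_assoc, div_mul_cancel₀ δ hc]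
        _ ≤ _ := mul_le_mul_right h4 _
  obtain ⟨n, hn, q, hch, hq⟩ := newton (𝒜 := 𝒜) hS hgen hm hδm hnv
    ⟨1, one_ne_zero, fun d h hh => by
      rw [one_pow, one_mul, hq₀ d h hh, hcψ d h hh, ← mul_assoc, ← mul_pow,
        div_mul_cancel₀ δ hc]⟩ a γ 1 hγ one_ne_zero
    (fun i => by rw [one_pow, mul_one]; exact h1 i)
    (fun i hi => by rw [one_pow, mul_one]; exact h2 i hi)
    (by rw [one_pow, mul_one]; exact h3)
  refine ⟨δ, q₀, q, n, ⟨s₀, hs₀, heq⟩, hq₀, hn, hch, ?_⟩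
  obtain ⟨c', hc', hq'⟩ := hq
  exact ⟨c', hc', fun d h hh => by rw [hq' d h hh, one_pow, mul_one]⟩

/-- The starting point over `ℂ`. -/
theorem start_const (P : Place K) {S : Finset R} {x : R →ₐ[ℂ] ℂ} {δ : K} {q₀ : R →ₐ[ℂ] P.k}
    (h1 : ∃ s ∈ S, P.A.valuation (δ * ((Algebra.ofId ℂ K).comp x) s) = 1)
    (h2 : ∀ d, ∀ h ∈ 𝒜 d, q₀ h = P.red (δ ^ d * ((Algebra.ofId ℂ K).comp x) h)) :
    ∃ c : P.k, c ≠ 0 ∧ ∀ d, ∀ h ∈ 𝒜 d, ((Algebra.ofId ℂ P.k).comp x) h = c ^ d * q₀ h := by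
  obtain ⟨s, -, hs⟩ := h1
  have hx : ∀ h, ((Algebra.ofId ℂ K).comp x) h = algebraMap ℂ K (x h) := fun h => rfl
  have hδ : P.A.valuation δ = 1 := by
    rw [hx, map_mul] at hs
    by_cases h0 : x s = 0
    · rw [h0, map_zero, map_zero, mul_zero] at hs
      exact absurd hs zero_ne_one
    · rwa [P.valuation_const h0, mul_one] at hs
  have hmem : δ ∈ P.A := P.mem_iff.2 hδ.le
  have hne := P.red_ne_zero hδ
  refine ⟨(P.red δ)⁻¹, inv_ne_zero hne, fun d h hh => ?_⟩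
  rw [h2 d h hh, hx, P.red_mul (pow_mem hmem d) (P.hC _), P.red_pow hmem, P.red_algebraMap,
    inv_aux hne]
  rfl

end Vale.Agent.P280.S.H348
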