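import Vale.Agent.P280.S.H348.Reg
import Vale.Agent.P280.S.H265.PlaceAt

/-! P280 S, rows C1 and C2. -/

open Polynomial

namespace Vale.Agent.P280.S.H348

variable {R : Type} [CommRing R] [Algebra ℂ R] {𝒜 : ℕ → Submodule ℂ R} [GradedAlgebra 𝒜]

/-- Base change of a solution. -/
theorem sol_map {k K : Type} [Field k] [Algebra ℂ k] [Field K] [Algebra ℂ K] (ι : k →ₐ[ℂ] K)
    {x : R →ₐ[ℂ] ℂ} {J : Set R} {e : ℕ} {θ : R →ₐ[ℂ] k} {ψ : R →ₐ[ℂ] k[X]}
    (h : Sol 𝒜 x J e θ ψ) : Sol 𝒜 x J e (ι.comp θ) ((mapAlgHom ι).comp ψ) := by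
  have hc : ∀ r i, (((mapAlgHom ι).comp ψ) r).coeff i = ι ((ψ r).coeff i) := by
    intro r i
    rw [AlgHom.comp_apply, coe_mapAlgHom, coeff_map]
    rfl
  refine ⟨?_, ?_, ?_, ?_⟩
  · intro d h' hh
    rw [AlgHom.comp_apply, coe_mapAlgHom]
    exact natDegree_map_le.trans (h.deg d h' hh)
  · obtain ⟨c, hc0, hcx⟩ := h.starts
    refine ⟨ι c, (map_ne_zero ι).2 hc0, fun d h' hh => ?_⟩
    rw [hc, hcx d h' hh, map_mul, map_pow]
    congr 1
    exact ι.commutes (x h')
  · obtain ⟨y, ⟨h0, hh0, hne0⟩, hyJ, c, hc0, hcy⟩ := h.ends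
    refine ⟨ι.comp y, ⟨h0, hh0, (map_ne_zero ι).2 hne0⟩, fun h' hh => ?_, ι c,
      (map_ne_zero ι).2 hc0, fun d h' hh => ?_⟩
    · rw [AlgHom.comp_apply, hyJ h' hh, map_zero]
    · rw [hc, hcy d h' hh, map_mul, map_pow]
      rfl
  · intro h'
    rw [AlgHom.comp_apply, coe_mapAlgHom, AlgHom.comp_apply, ← h.one h', eval_one_map]
    rfl

/-- Row C1: the universal curve has coefficients in `R`. -/
theorem exists_univ [IsDomain R] (hX : IsProjectiveManifold 𝒜) {x : R →ₐ[ℂ] ℂ} {J : Set R}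
    {e : ℕ} (hG : Good 𝒜 x J e) {φ₀ : R →ₐ[ℂ] (FractionRing R)[X]}
    (hφ₀ : Sol 𝒜 x J e (IsScalarTower.toAlgHom ℂ R (FractionRing R)) φ₀) :
    ∃ φ : R →ₐ[ℂ] R[X], H265.Univ 𝒜 x J e φ := by
  classical
  obtain ⟨S, hS, hgen⟩ := exists_gens hX.finiteType hX.gen
  have hnorm := hX.normal
  obtain ⟨s₁, hs₁, -⟩ := nv_gens hS hgen hG.nv
  let K := AlgebraicClosure (FractionRing R)
  let ι : FractionRing R →ₐ[ℂ] K := IsScalarTower.toAlgHom ℂ (FractionRing R) K
  set ψ : R →ₐ[ℂ] K[X] := (mapAlgHom ι).comp φ₀ with hψ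
  have hsol : Sol 𝒜 x J e (ι.comp (IsScalarTower.toAlgHom ℂ R (FractionRing R))) ψ :=
    sol_map ι hφ₀
  have hψc : ∀ r i, (ψ r).coeff i = ι ((φ₀ r).coeff i) := by
    intro r i
    rw [hψ, AlgHom.comp_apply, coe_mapAlgHom, coeff_map]
    rfl
  -- the coefficients are integral
  have hmem : ∀ V : ValuationSubring K, (∀ r : R, algebraMap R K r ∈ V) →
      ∀ h ∈ 𝒜 1, ∀ i, (ψ h).coeff i ∈ V := by
    intro V hV h hh i
    let P : Place K := ⟨V, fun c => by
      rw [IsScalarTower.algebraMap_apply ℂ R K]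
      exact hV _⟩
    obtain ⟨m, hm⟩ := exists_max P ⟨s₁, hs₁⟩ ψ
    have h1 := integral P hX.finiteType hX.gen hS hgen hG (fun s _ => by
      change ι (algebraMap R (FractionRing R) s) ∈ V
      have := hV s
      rwa [IsScalarTower.algebraMap_apply R (FractionRing R) K] at this) hsol hm
    have h2 : ∀ s ∈ S, ∀ i, (ψ s).coeff i ∈ P.A := fun s hs i =>
      P.mem_iff.2 ((hm.le i s hs).trans (h1 i))
    refine Submodule.span_induction (p := fun x _ => (ψ x).coeff i ∈ V) ?_ ?_ ?_ ?_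
      (mem_span_mon (T := (S : Set R)) hS hgen hh)
    · intro x hx
      cases hx with
      | mul hx hs =>
        cases hx with
        | one =>
          rw [one_mul]
          exact h2 _ hs i
    · rw [map_zero, coeff_zero]
      exact V.zero_mem
    · intro x y _ _ hx hy
      rw [map_add, coeff_add]
      exact V.add_mem _ _ hx hy
    · intro c x _ hx
      rw [map_smul, Algebra.smul_def, Polynomial.algebraMap_apply, coeff_C_mul]
      exact V.mul_mem _ _ (P.hC c) hx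
  have hint : ∀ h ∈ 𝒜 1, ∀ i, ∃ a : R,
      (IsScalarTower.toAlgHom ℂ R (FractionRing R)) a = (φ₀ h).coeff i := by
    intro h hh i
    have h1 : (ψ h).coeff i ∈ (⨅ V : {V : ValuationSubring K // Set.range (algebraMap R K) ⊆
        V.toSubring}, V.1.toSubring) := by
      rw [Subring.mem_iInf]
      rintro ⟨V, hV⟩
      exact hmem V (fun r => hV ⟨r, rfl⟩) h hh i
    rw [iInf_valuationSubring_superset] at h1
    have h2 : IsIntegral (Subring.closure (Set.range (algebraMap R K))) ((ψ h).coeff i) := h1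
    have h3 : IsIntegral R ((ψ h).coeff i) := by
      obtain ⟨p, hp, hp0⟩ := h2
      have hle : Subring.closure (Set.range (algebraMap R K)) ≤ (algebraMap R K).range :=
        Subring.closure_le.2 fun x hx => hx
      have h5 : IsIntegral (algebraMap R K).range ((ψ h).coeff i) := by
        refine ⟨p.map (Subring.inclusion hle), hp.map _, ?_⟩
        rw [eval₂_map]
        exact hp0
      obtain ⟨p', hp', hp0'⟩ := h5
      have hlift : p' ∈ Polynomial.lifts ((algebraMap R K).rangeRestrict) := by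
        rw [Polynomial.lifts_iff_coeff_lifts]
        intro n
        exact (algebraMap R K).rangeRestrict_surjective _
      obtain ⟨p'', hp'', -, hmon⟩ := Polynomial.lifts_and_natDegree_eq_and_monic hlift hp'
      refine ⟨p'', hmon, ?_⟩
      rw [← hp'', eval₂_map] at hp0'
      exact hp0'
    rw [hψc] at h3
    have h4 : IsIntegral R ((φ₀ h).coeff i) := by
      have h6 : Function.Injective (algebraMap (FractionRing R) K) :=
        (algebraMap (FractionRing R) K).injective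
      exact (isIntegral_algebraMap_iff h6).1 h3
    exact IsIntegrallyClosed.isIntegral_iff.1 h4
  obtain ⟨φ, hφ⟩ := exists_lift_poly (IsScalarTower.toAlgHom ℂ R (FractionRing R))
    (IsFractionRing.injective R (FractionRing R)) φ₀
    (coeff_range_of_gen 𝒜 hX.gen (IsScalarTower.toAlgHom ℂ R (FractionRing R)) φ₀ hint)
  refine ⟨φ, ?_⟩
  have heq : (Polynomial.mapAlgHom (IsScalarTower.toAlgHom ℂ R (FractionRing R))).comp φ = φ₀ := by
    refine AlgHom.ext fun r => Polynomial.ext fun i => ?_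
    rw [AlgHom.comp_apply, coe_mapAlgHom, coeff_map]
    exact hφ r i
  unfold H265.Univ
  rw [heq]
  exact hφ₀

/-- Row C2: fixed points are joined to `Y` by chains of small degree. -/
theorem chain_of_fixed [IsDomain R] (hX : IsProjectiveManifold 𝒜) {x : R →ₐ[ℂ] ℂ} {J : Set R}
    {e : ℕ} (hG : Good 𝒜 x J e) {φ : R →ₐ[ℂ] R[X]} (hφ : H265.Univ 𝒜 x J e φ)
    (hc : H265.IsCoaction 𝒜 e φ) {q : R →ₐ[ℂ] ℂ} (hq : NV 𝒜 q) {μ : ℤ}
    (hfix : T.IsFixed (H265.bi 𝒜 φ) q μ) :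
    ∃ (n : ℕ) (y : R →ₐ[ℂ] ℂ), (n : ℤ) + μ ≤ e ∧ NV 𝒜 y ∧ (∀ h ∈ J, y h = 0) ∧
      Ch 𝒜 ℂ n q y := by
  classical
  obtain ⟨S, hS, hgen⟩ := exists_gens hX.finiteType hX.gen
  let K := AlgebraicClosure (FractionRing R)
  let ι : FractionRing R →ₐ[ℂ] K := IsScalarTower.toAlgHom ℂ (FractionRing R) K
  set ψ : R →ₐ[ℂ] K[X] := (mapAlgHom ι).comp
    ((Polynomial.mapAlgHom (IsScalarTower.toAlgHom ℂ R (FractionRing R))).comp φ) with hψ
  have hsol : Sol 𝒜 x J e (ι.comp (IsScalarTower.toAlgHom ℂ R (FractionRing R))) ψ :=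
    sol_map ι hφ
  have hψc : ∀ r i, (ψ r).coeff i = algebraMap R K ((φ r).coeff i) := by
    intro r i
    rw [hψ, AlgHom.comp_apply, coe_mapAlgHom, coeff_map, AlgHom.comp_apply, coe_mapAlgHom,
      coeff_map, IsScalarTower.algebraMap_apply R (FractionRing R) K]
    rfl
  have hinj : Function.Injective (algebraMap R K) := by
    rw [IsScalarTower.algebraMap_eq R (FractionRing R) K]
    exact (algebraMap (FractionRing R) K).injective.comp
      (IsFractionRing.injective R (FractionRing R))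
  obtain ⟨P, hPmem, hPred⟩ := H265.exists_place (K := K) hinj q
  -- weights
  have hwt : ∀ d, ∀ h ∈ 𝒜 d, ∀ i : ℕ, q ((φ h).coeff i) ≠ 0 → (i : ℤ) = d • μ := fun d h hh i hi =>
    hfix d i _ (H265.coeff_mem_bi hc hh i) hi
  obtain ⟨s₁, hs₁, hne₁⟩ := nv_gens hS hgen hq
  have hsum : ∀ d, ∀ h ∈ 𝒜 d, q h = ∑ i ∈ Finset.range (d * e + 1), q ((φ h).coeff i) := by
    intro d h hh
    conv_lhs => rw [H265.eq_sum_coeff hc hh]
    rw [map_sum]
  obtain ⟨u, hu⟩ : ∃ u : ℕ, q ((φ s₁).coeff u) ≠ 0 := by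
    by_contra hcon
    push Not at hcon
    apply hne₁
    rw [hsum 1 s₁ (hS s₁ hs₁)]
    exact Finset.sum_eq_zero fun i _ => hcon i
  have huμ : (u : ℤ) = μ := by
    have := hwt 1 s₁ (hS s₁ hs₁) u hu
    rwa [one_smul] at this
  have hue : u ≤ e := by
    by_contra hcon
    apply hu
    have h1 := hc.deg 1 s₁ (hS s₁ hs₁)
    rw [coeff_eq_zero_of_natDegree_lt (by omega), map_zero]
  have hqd : ∀ d, ∀ h ∈ 𝒜 d, q ((φ h).coeff (d * u)) = q h := by
    intro d h hh
    rw [hsum d h hh]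
    symm
    refine Finset.sum_eq_single (d * u) ?_ ?_
    · intro i _ hi
      by_contra hne
      apply hi
      have h1 := hwt d h hh i hne
      rw [← huμ, nsmul_eq_mul] at h1
      exact_mod_cast h1
    · intro hnot
      exact absurd (Finset.mem_range.2 (Nat.lt_succ_of_le (Nat.mul_le_mul_left d hue))) hnot
  -- the place
  obtain ⟨m, hm⟩ := exists_max P ⟨s₁, hs₁⟩ ψ
  have hle := integral P hX.finiteType hX.gen hS hgen hG (fun s _ => by
    have := hPmem s
    rwa [IsScalarTower.algebraMap_apply R (FractionRing R) K] at this) hsol hm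
  have hlt : ∀ i, i ≠ u → P.A.valuation (m i) < 1 := by
    intro i hi
    refine lt_of_le_of_ne (hle i) fun h1 => ?_
    have h2 := P.red_ne_zero h1
    obtain ⟨s, hs, hsm⟩ := hm.ex i
    rw [← hsm, hψc, hPred] at h2
    have h3 : q ((φ s).coeff i) ≠ 0 := fun h0 => h2 (by rw [h0, map_zero])
    have h4 := hwt 1 s (hS s hs) i h3
    rw [one_smul, ← huμ] at h4
    exact hi (by exact_mod_cast h4)
  have hmu : P.A.valuation (m u) = 1 := by
    refine le_antisymm (hle u) ?_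
    by_contra hcon
    push Not at hcon
    have h1 := P.red_eq_zero (lt_of_le_of_lt (hm.le u s₁ hs₁) hcon)
    rw [hψc, hPred] at h1
    exact hu ((map_eq_zero (algebraMap ℂ P.k)).1 h1)
  obtain ⟨y, hyn, hyJ, hyE⟩ := hsol.ends
  obtain ⟨δ, y₀, q', n, hy₀, hn, hch, c, hc0, hq'⟩ := newtonEnd P hS hgen hsol.deg hyn hyE hm
    (γ := 1) one_ne_zero (fun i => by rw [one_mul]; exact hle i) hue
    (fun i hi => by rw [one_mul]; exact hlt i (by omega)) (by rw [one_mul]; exact hmu)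
  have hqk : NV 𝒜 ((Algebra.ofId ℂ P.k).comp q) := by
    obtain ⟨h, hh, hne⟩ := hq
    exact ⟨h, hh, (map_ne_zero (algebraMap ℂ P.k)).2 hne⟩
  obtain ⟨y₁, ⟨c₁, hc₁, hy₁⟩, hch₁⟩ := scale_left (Ch.symm 𝒜 hch) hqk ⟨c⁻¹, inv_ne_zero hc0,
    fun d h hh => by
      rw [hq' d h hh, inv_aux hc0, one_pow, one_mul, hψc, hPred, hqd d h hh]
      rfl⟩
  have hyJ1 : ∀ h ∈ J, y₁ h = 0 := by
    intro h hh
    obtain ⟨d, hd⟩ := hG.hom h hh
    rw [hy₁ d h hd, hy₀ d h hd, hyJ h hh, mul_zero, P.red_zero, mul_zero]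
  obtain ⟨y2, hy2, hy2J, hch2⟩ := spec_chain hX.finiteType hX.gen (Ch.nv_right 𝒜 hch₁) hyJ1 hch₁
  refine ⟨n, y2, ?_, hy2, hy2J, hch2⟩
  rw [← huμ]
  have h9 : n + u ≤ e := by omega
  exact_mod_cast h9

end Vale.Agent.P280.S.H348
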