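import Vale.Agent.P280.S.H348.Place

/-! P280 S: generation in degree one, division of graded homomorphisms. -/

open Polynomial DirectSum

namespace Vale.Agent.P280.S.H348

variable {R : Type} [CommRing R] [Algebra ℂ R]

/-- Products of `d` elements of `S`. -/
inductive Mon (S : Set R) : ℕ → R → Prop
  | one : Mon S 0 1
  | mul {d : ℕ} {x s : R} (hx : Mon S d x) (hs : s ∈ S) : Mon S (d + 1) (x * s)

theorem Mon.mul' {S : Set R} {d d' : ℕ} {x y : R} (hx : Mon S d x) (hy : Mon S d' y) :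
    Mon S (d + d') (x * y) := by
  induction hy with
  | one => simpa using hx
  | mul hy hs ih =>
    have := ih.mul hs
    rw [← mul_assoc, ← add_assoc]
    exact this

theorem Mon.mem {𝒜 : ℕ → Submodule ℂ R} [GradedAlgebra 𝒜] {S : Set R} (hS : ∀ s ∈ S, s ∈ 𝒜 1)
    {d : ℕ} {x : R} (hx : Mon S d x) : x ∈ 𝒜 d := by
  induction hx with
  | one => exact SetLike.GradedOne.one_mem
  | mul hx hs ih => exact SetLike.mul_mem_graded ih (hS _ hs)

theorem mem_span_mon {𝒜 : ℕ → Submodule ℂ R} [GradedAlgebra 𝒜] {T : Set R}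
    (hT : ∀ s ∈ T, s ∈ 𝒜 1) (hgen : Algebra.adjoin ℂ T = ⊤) {d : ℕ} {h : R} (hh : h ∈ 𝒜 d) :
    h ∈ Submodule.span ℂ {x | Mon T d x} := by
  let S : ℕ → Submodule ℂ R := fun i => Submodule.span ℂ {x | Mon T i x}
  have hSmul : ∀ i j, S i * S j ≤ S (i + j) := by
    intro i j
    rw [Submodule.span_mul_span]
    apply Submodule.span_le.2
    rintro _ ⟨x, hx, y, hy, rfl⟩
    exact Submodule.subset_span (Mon.mul' hx hy)
  have hS : ∀ i, S i ≤ 𝒜 i := by
    intro i
    apply Submodule.span_le.2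
    intro x hx
    exact Mon.mem hT hx
  have hall : ∀ x : R, x ∈ ⨆ i, S i := by
    intro x
    have hx : x ∈ Algebra.adjoin ℂ T := by
      rw [hgen]; trivial
    induction hx using Algebra.adjoin_induction with
    | mem x hx =>
      apply Submodule.mem_iSup_of_mem 1
      apply Submodule.subset_span
      have := (Mon.one (S := T)).mul hx
      simpa using this
    | algebraMap r =>
      apply Submodule.mem_iSup_of_mem 0
      rw [Algebra.algebraMap_eq_smul_one]
      exact Submodule.smul_mem _ _ (Submodule.subset_span Mon.one)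
    | add x y _ _ hx hy => exact Submodule.add_mem _ hx hy
    | mul x y _ _ hx hy =>
      have h1 : x * y ∈ (⨆ i, S i) * (⨆ i, S i) := Submodule.mul_mem_mul hx hy
      rw [Submodule.iSup_mul] at h1
      refine (iSup_le ?_ : (⨆ i, S i * ⨆ j, S j) ≤ ⨆ i, S i) h1
      intro i
      rw [Submodule.mul_iSup]
      apply iSup_le
      intro j
      exact (hSmul i j).trans (le_iSup S (i + j))
  have h2 := hall h
  have h3 : ∀ x ∈ ⨆ i, S i, ((DirectSum.decompose 𝒜 x) d : R) ∈ S d := by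
    intro x hx
    refine Submodule.iSup_induction (motive := fun x =>
      ((DirectSum.decompose 𝒜 x) d : R) ∈ S d) S hx ?_ ?_ ?_
    · intro i x hx
      by_cases hi : i = d
      · subst hi
        rw [DirectSum.decompose_of_mem_same 𝒜 (hS _ hx)]
        exact hx
      · rw [DirectSum.decompose_of_mem_ne 𝒜 (hS _ hx) hi]
        exact Submodule.zero_mem _
    · rw [DirectSum.decompose_zero]
      exact Submodule.zero_mem _
    · intro x y hx hy
      rw [DirectSum.decompose_add]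
      exact Submodule.add_mem _ hx hy
  have h4 := h3 h h2
  rwa [DirectSum.decompose_of_mem_same 𝒜 hh] at h4

/-- Induction on homogeneous elements. -/
theorem gen_ind {𝒜 : ℕ → Submodule ℂ R} [GradedAlgebra 𝒜] {T : Set R}
    (hT : ∀ s ∈ T, s ∈ 𝒜 1) (hgen : Algebra.adjoin ℂ T = ⊤) {Q : ℕ → R → Prop} (h1 : Q 0 1)
    (hz : ∀ d, Q d 0) (hadd : ∀ d x y, Q d x → Q d y → Q d (x + y))
    (hsmul : ∀ (d : ℕ) (c : ℂ) (x : R), Q d x → Q d (c • x))
    (hmul : ∀ d x s, s ∈ T → Q d x → Q (d + 1) (x * s)) {d : ℕ} {h : R} (hh : h ∈ 𝒜 d) :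
    Q d h := by
  refine Submodule.span_induction (p := fun x _ => Q d x) ?_ (hz d) (fun x y _ _ => hadd d x y)
    (fun c x _ => hsmul d c x) (mem_span_mon hT hgen hh)
  intro x hx
  have : ∀ d x, Mon T d x → Q d x := by
    intro d x hx
    induction hx with
    | one => exact h1
    | mul hx hs ih => exact hmul _ _ _ hs ih
  exact this d x hx

/-- A finite set of generators of degree one. -/
theorem exists_gens {𝒜 : ℕ → Submodule ℂ R} (hfin : Algebra.FiniteType ℂ R)
    (hgen : Algebra.adjoin ℂ {h : R | h ∈ 𝒜 1} = ⊤) :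
    ∃ S : Finset R, (∀ s ∈ S, s ∈ 𝒜 1) ∧ Algebra.adjoin ℂ (S : Set R) = ⊤ := by
  classical
  obtain ⟨T, hT⟩ := hfin.out
  have key : ∀ x : R, ∃ S : Finset R, (∀ s ∈ S, s ∈ 𝒜 1) ∧ x ∈ Algebra.adjoin ℂ (S : Set R) := by
    intro x
    have hx : x ∈ Algebra.adjoin ℂ {h : R | h ∈ 𝒜 1} := by
      rw [hgen]
      trivial
    induction hx using Algebra.adjoin_induction with
    | mem x hx =>
      refine ⟨{x}, fun s hs => ?_, Algebra.subset_adjoin (by simp)⟩
      rw [Finset.mem_singleton.1 hs]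
      exact hx
    | algebraMap r => exact ⟨∅, fun s hs => absurd hs (Finset.notMem_empty s),
        Subalgebra.algebraMap_mem _ r⟩
    | add x y _ _ hx hy =>
      obtain ⟨S, hS, hx'⟩ := hx
      obtain ⟨S', hS', hy'⟩ := hy
      refine ⟨S ∪ S', fun s hs => ?_, ?_⟩
      · rcases Finset.mem_union.1 hs with h | h
        · exact hS s h
        · exact hS' s h
      · exact Subalgebra.add_mem _
          (Algebra.adjoin_mono (by rw [Finset.coe_union]; exact Set.subset_union_left) hx')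
          (Algebra.adjoin_mono (by rw [Finset.coe_union]; exact Set.subset_union_right) hy')
    | mul x y _ _ hx hy =>
      obtain ⟨S, hS, hx'⟩ := hx
      obtain ⟨S', hS', hy'⟩ := hy
      refine ⟨S ∪ S', fun s hs => ?_, ?_⟩
      · rcases Finset.mem_union.1 hs with h | h
        · exact hS s h
        · exact hS' s h
      · exact Subalgebra.mul_mem _
          (Algebra.adjoin_mono (by rw [Finset.coe_union]; exact Set.subset_union_left) hx')
          (Algebra.adjoin_mono (by rw [Finset.coe_union]; exact Set.subset_union_right) hy')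
  choose F hF hF' using key
  refine ⟨T.biUnion F, fun s hs => ?_, ?_⟩
  · obtain ⟨t, -, ht⟩ := Finset.mem_biUnion.1 hs
    exact hF t s ht
  · rw [eq_top_iff, ← hT]
    refine Algebra.adjoin_le fun t ht => ?_
    refine Algebra.adjoin_mono ?_ (hF' t)
    intro s hs
    exact Finset.mem_coe.2 (Finset.mem_biUnion.2 ⟨t, ht, hs⟩)

/-- Division of a graded homomorphism. -/
theorem exists_divide (𝒜 : ℕ → Submodule ℂ R) [GradedAlgebra 𝒜] {B : Type} [CommRing B]
    [IsDomain B] [Algebra ℂ B] (ψ : R →ₐ[ℂ] B) {g : B} (hg : g ≠ 0)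
    (hd : ∀ d, ∀ h ∈ 𝒜 d, g ^ d ∣ ψ h) :
    ∃ ψ₁ : R →ₐ[ℂ] B, ∀ d, ∀ h ∈ 𝒜 d, ψ h = g ^ d * ψ₁ h := by
  choose q hq using hd
  let L : ∀ d : ℕ, 𝒜 d →ₗ[ℂ] B := fun d =>
    { toFun := fun x => q d x x.2
      map_add' := by
        intro x y
        apply mul_left_cancel₀ (pow_ne_zero d hg)
        rw [← hq, mul_add, ← hq, ← hq, Submodule.coe_add, map_add]
      map_smul' := by
        intro c x
        apply mul_left_cancel₀ (pow_ne_zero d hg)
        rw [← hq, RingHom.id_apply, mul_smul_comm, ← hq, Submodule.coe_smul, map_smul] }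
  have hL : ∀ (d : ℕ) (x : 𝒜 d), ψ x = g ^ d * L d x := fun d x => hq d x x.2
  let f : ℕ → R →ₗ[ℂ] B := fun d => (L d).comp
    ((DirectSum.component ℂ ℕ (fun i => 𝒜 i) d).comp (decomposeLinearEquiv 𝒜).toLinearMap)
  have hf : ∀ (d : ℕ) (h : R) (hh : h ∈ 𝒜 d), f d h = L d ⟨h, hh⟩ := by
    intro d h hh
    change L d ((decompose 𝒜 h) d) = _
    congr 1
    apply Subtype.ext
    exact decompose_of_mem_same 𝒜 hh
  have hfq : ∀ (d : ℕ) (h : R), h ∈ 𝒜 d → ψ h = g ^ d * f d h := by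
    intro d h hh
    rw [hf d h hh]
    exact hL d ⟨h, hh⟩
  refine ⟨mkHom 𝒜 f ?_ ?_, fun d h hh => ?_⟩
  · have h1 := hfq 0 1 SetLike.GradedOne.one_mem
    rw [map_one, pow_zero, one_mul] at h1
    exact h1.symm
  · intro i j a ha b hb
    apply mul_left_cancel₀ (pow_ne_zero (i + j) hg)
    rw [← hfq (i + j) (a * b) (SetLike.mul_mem_graded ha hb), map_mul, hfq i a ha, hfq j b hb,
      pow_add]
    ring
  · rw [mkHom_apply 𝒜 hh]
    exact hfq d h hh

theorem dvd_of_gens {𝒜 : ℕ → Submodule ℂ R} [GradedAlgebra 𝒜] {T : Set R}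
    (hT : ∀ s ∈ T, s ∈ 𝒜 1) (hgen : Algebra.adjoin ℂ T = ⊤) {B : Type} [CommRing B]
    [Algebra ℂ B] (ψ : R →ₐ[ℂ] B) {g : B} (hd : ∀ s ∈ T, g ∣ ψ s) :
    ∀ d, ∀ h ∈ 𝒜 d, g ^ d ∣ ψ h := by
  intro d h hh
  refine gen_ind hT hgen (Q := fun d h => g ^ d ∣ ψ h) ?_ ?_ ?_ ?_ ?_ hh
  · simp
  · intro d
    rw [map_zero]
    exact dvd_zero _
  · intro d x y hx hy
    rw [map_add]
    exact dvd_add hx hy
  · intro d c x hx
    rw [map_smul, Algebra.smul_def]
    exact dvd_mul_of_dvd_right hx _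
  · intro d x s hs hx
    rw [map_mul, pow_succ]
    exact mul_dvd_mul hx (hd s hs)

theorem natDegree_of_gens {𝒜 : ℕ → Submodule ℂ R} [GradedAlgebra 𝒜] {T : Set R}
    (hT : ∀ s ∈ T, s ∈ 𝒜 1) (hgen : Algebra.adjoin ℂ T = ⊤) {k : Type} [Field k]
    [Algebra ℂ k] (ψ : R →ₐ[ℂ] k[X]) {e : ℕ} (hd : ∀ s ∈ T, (ψ s).natDegree ≤ e) :
    Deg 𝒜 e ψ := by
  intro d h hh
  refine gen_ind hT hgen (Q := fun d h => (ψ h).natDegree ≤ d * e) ?_ ?_ ?_ ?_ ?_ hh
  · simp
  · intro d
    rw [map_zero, natDegree_zero]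
    exact Nat.zero_le _
  · intro d x y hx hy
    rw [map_add]
    exact (natDegree_add_le _ _).trans (max_le hx hy)
  · intro d c x hx
    rw [map_smul]
    exact (natDegree_smul_le _ _).trans hx
  · intro d x s hs hx
    rw [map_mul, add_mul, one_mul]
    exact natDegree_mul_le.trans (add_le_add hx (hd s hs))

end Vale.Agent.P280.S.H348
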