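import Vale.Agent.P280.S.H847.Hom

/-! P280 S: places of a field over the complex numbers, reduction of curves. -/

open Polynomial

namespace Vale.Agent.P280.S.H348

/-- A place of `K` over `ℂ`. -/
structure Place (K : Type) [Field K] [Algebra ℂ K] where
  /-- the valuation ring -/
  A : ValuationSubring K
  /-- constants are units -/
  hC : ∀ c : ℂ, algebraMap ℂ K c ∈ A

namespace Place

variable {K : Type} [Field K] [Algebra ℂ K] (P : Place K)

/-- The residue field. -/
def k : Type := IsLocalRing.ResidueField P.A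

noncomputable instance : Field P.k := inferInstanceAs (Field (IsLocalRing.ResidueField P.A))

/-- The residue map. -/
noncomputable def res : P.A →+* P.k := IsLocalRing.residue P.A

noncomputable instance : Algebra ℂ P.k :=
  (P.res.comp ((algebraMap ℂ K).codRestrict P.A P.hC)).toAlgebra

theorem algebraMap_k (c : ℂ) : algebraMap ℂ P.k c = P.res ⟨algebraMap ℂ K c, P.hC c⟩ := rfl

open Classical in
/-- Reduction, extended by zero. -/
noncomputable def red (x : K) : P.k := if h : x ∈ P.A then P.res ⟨x, h⟩ else 0

theorem red_of_mem {x : K} (h : x ∈ P.A) : P.red x = P.res ⟨x, h⟩ := dif_pos h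

theorem red_zero : P.red 0 = 0 := by
  rw [red_of_mem P P.A.zero_mem]
  exact map_zero P.res

theorem red_one : P.red 1 = 1 := by
  rw [red_of_mem P P.A.one_mem]
  exact map_one P.res

theorem red_add {x y : K} (hx : x ∈ P.A) (hy : y ∈ P.A) : P.red (x + y) = P.red x + P.red y := by
  rw [red_of_mem P hx, red_of_mem P hy, red_of_mem P (P.A.add_mem _ _ hx hy), ← map_add]
  rfl

theorem red_mul {x y : K} (hx : x ∈ P.A) (hy : y ∈ P.A) : P.red (x * y) = P.red x * P.red y := by
  rw [red_of_mem P hx, red_of_mem P hy, red_of_mem P (P.A.mul_mem _ _ hx hy), ← map_mul]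
  rfl

theorem red_algebraMap (c : ℂ) : P.red (algebraMap ℂ K c) = algebraMap ℂ P.k c := by
  rw [red_of_mem P (P.hC c), algebraMap_k]

theorem red_pow {x : K} (hx : x ∈ P.A) (n : ℕ) : P.red (x ^ n) = P.red x ^ n := by
  induction n with
  | zero => rw [pow_zero, pow_zero, red_one]
  | succ n ih => rw [pow_succ, pow_succ, red_mul P (pow_mem hx n) hx, ih]

theorem red_sum {ι : Type} (s : Finset ι) (f : ι → K) (hf : ∀ i ∈ s, f i ∈ P.A) :
    P.red (∑ i ∈ s, f i) = ∑ i ∈ s, P.red (f i) := by
  classical
  induction s using Finset.induction_on with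
  | empty => simp [red_zero]
  | insert a s ha ih =>
    rw [Finset.sum_insert ha, Finset.sum_insert ha, red_add P (hf a (Finset.mem_insert_self a s))
      (sum_mem fun i hi => hf i (Finset.mem_insert_of_mem hi)),
      ih fun i hi => hf i (Finset.mem_insert_of_mem hi)]

theorem mem_iff {x : K} : x ∈ P.A ↔ P.A.valuation x ≤ 1 := (P.A.valuation_le_one_iff x).symm

theorem red_eq_zero {x : K} (hx : P.A.valuation x < 1) : P.red x = 0 := by
  have hm : x ∈ P.A := P.mem_iff.2 hx.le
  rw [red_of_mem P hm]
  have h1 : (⟨x, hm⟩ : P.A) ∈ IsLocalRing.maximalIdeal P.A :=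
    (P.A.valuation_lt_one_iff ⟨x, hm⟩).2 hx
  exact (IsLocalRing.residue_eq_zero_iff (R := P.A) _).2 h1

theorem red_ne_zero {x : K} (hx : P.A.valuation x = 1) : P.red x ≠ 0 := by
  have hm : x ∈ P.A := P.mem_iff.2 hx.le
  rw [red_of_mem P hm]
  intro h0
  have h1 := (IsLocalRing.residue_eq_zero_iff (R := P.A) _).1 h0
  have h2 := (P.A.valuation_lt_one_iff ⟨x, hm⟩).1 h1
  exact absurd hx h2.ne

/-- Reduction of polynomials. -/
noncomputable def redP (p : K[X]) : P.k[X] :=
  ∑ i ∈ Finset.range (p.natDegree + 1), monomial i (P.red (p.coeff i))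

theorem coeff_redP (p : K[X]) (i : ℕ) : (P.redP p).coeff i = P.red (p.coeff i) := by
  rw [redP, finsetSum_coeff]
  simp only [coeff_monomial]
  rw [Finset.sum_ite_eq' (Finset.range (p.natDegree + 1)) i fun j => P.red (p.coeff j)]
  split_ifs with h
  · rfl
  · rw [coeff_eq_zero_of_natDegree_lt (by
      rw [Finset.mem_range] at h
      omega), red_zero]

/-- Integral polynomials. -/
def int : Subalgebra ℂ K[X] where
  carrier := {p | ∀ i, p.coeff i ∈ P.A}
  mul_mem' := by
    intro a b ha hb i
    rw [coeff_mul]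
    exact sum_mem fun x _ => mul_mem (ha x.1) (hb x.2)
  add_mem' := by
    intro a b ha hb i
    rw [coeff_add]
    exact add_mem (ha i) (hb i)
  algebraMap_mem' := by
    intro c i
    rw [Polynomial.algebraMap_apply, coeff_C]
    split_ifs
    · exact P.hC c
    · exact P.A.zero_mem

theorem mem_int {p : K[X]} : p ∈ P.int ↔ ∀ i, p.coeff i ∈ P.A := Iff.rfl

/-- Reduction of integral polynomials. -/
noncomputable def redHom : P.int →ₐ[ℂ] P.k[X] where
  toFun p := P.redP p
  map_one' := by
    ext i
    rw [coeff_redP]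
    change P.red ((1 : K[X]).coeff i) = _
    rw [coeff_one, coeff_one]
    split_ifs
    · exact P.red_one
    · exact P.red_zero
  map_mul' := by
    intro a b
    ext i
    rw [coeff_redP, coeff_mul]
    change P.red (((a : K[X]) * (b : K[X])).coeff i) = _
    rw [coeff_mul, red_sum P _ _ fun x _ => mul_mem (a.2 x.1) (b.2 x.2)]
    refine Finset.sum_congr rfl fun x _ => ?_
    rw [coeff_redP, coeff_redP]
    exact red_mul P (a.2 x.1) (b.2 x.2)
  map_zero' := by
    ext i
    rw [coeff_redP]
    exact P.red_zero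
  map_add' := by
    intro a b
    ext i
    rw [coeff_redP, coeff_add, coeff_redP, coeff_redP]
    change P.red (((a : K[X]) + (b : K[X])).coeff i) = _
    rw [coeff_add]
    exact red_add P (a.2 i) (b.2 i)
  commutes' := by
    intro c
    ext i
    rw [coeff_redP, Polynomial.algebraMap_apply]
    change P.red ((algebraMap ℂ K[X] c).coeff i) = _
    rw [Polynomial.algebraMap_apply, coeff_C, coeff_C]
    split_ifs
    · exact P.red_algebraMap c
    · exact P.red_zero

theorem coeff_redHom (p : P.int) (i : ℕ) :
    (P.redHom p).coeff i = P.red ((p : K[X]).coeff i) := P.coeff_redP p i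

end Place

end Vale.Agent.P280.S.H348
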