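import Vale.Agent.P280.S.H348.Core
import Vale.Agent.P280.S.H265.Source

/-! P280 S, row C1: the coefficients of the universal curve are integral. -/

open Polynomial

namespace Vale.Agent.P280.S.H348

variable {R : Type} [CommRing R] [Algebra ℂ R] {𝒜 : ℕ → Submodule ℂ R} [GradedAlgebra 𝒜]
variable {K : Type} [Field K] [Algebra ℂ K]

/-- The coefficient vectors of largest valuation. -/
theorem exists_window {P : Place K} {S : Finset R} (hS : ∀ s ∈ S, s ∈ 𝒜 1)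
    {ψ : R →ₐ[ℂ] K[X]} {e : ℕ} (hdeg : Deg 𝒜 e ψ) {m : ℕ → K} (hm : Max P S ψ m)
    (hne : ∃ i, m i ≠ 0) : ∃ i₁ : ℕ, m i₁ ≠ 0 ∧
      (∀ i, P.A.valuation (m i) ≤ P.A.valuation (m i₁)) ∧
      (∀ i, P.A.valuation ((m i₁)⁻¹ * m i) ≤ 1) ∧ ∃ a b : ℕ, a ≤ b ∧ b ≤ e ∧
      P.A.valuation ((m i₁)⁻¹ * m a) = 1 ∧ P.A.valuation ((m i₁)⁻¹ * m b) = 1 ∧
      (∀ i < a, P.A.valuation ((m i₁)⁻¹ * m i) < 1) ∧
      ∀ i, b < i → P.A.valuation ((m i₁)⁻¹ * m i) < 1 := by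
  classical
  have hzero : ∀ i, e < i → m i = 0 := by
    intro i hi
    obtain ⟨s, hs, hsm⟩ := hm.ex i
    rw [← hsm]
    have h1 := hdeg 1 s (hS s hs)
    exact coeff_eq_zero_of_natDegree_lt (by omega)
  obtain ⟨i₁, hi₁, hmax⟩ := (Finset.range (e + 1)).exists_max_image
    (fun i => P.A.valuation (m i)) ⟨0, Finset.mem_range.2 (Nat.succ_pos e)⟩
  have hmax' : ∀ i, P.A.valuation (m i) ≤ P.A.valuation (m i₁) := by
    intro i
    by_cases hi : i ≤ e
    · exact hmax i (Finset.mem_range.2 (by omega))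
    · rw [hzero i (by omega), map_zero]
      exact zero_le
  have hne₁ : m i₁ ≠ 0 := by
    intro h0
    obtain ⟨i, hi⟩ := hne
    have h1 := hmax' i
    rw [h0, map_zero] at h1
    exact hi ((Valuation.zero_iff _).1 (le_antisymm h1 zero_le))
  have hv1 : P.A.valuation ((m i₁)⁻¹ * m i₁) = 1 := by
    rw [inv_mul_cancel₀ hne₁, map_one]
  have hle : ∀ i, P.A.valuation ((m i₁)⁻¹ * m i) ≤ 1 := by
    intro i
    rw [← hv1, map_mul, map_mul]
    exact mul_le_mul_right (hmax' i) _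
  have hex : ∃ i, P.A.valuation ((m i₁)⁻¹ * m i) = 1 := ⟨i₁, hv1⟩
  have hi₁e : i₁ ≤ e := by
    have := Finset.mem_range.1 hi₁
    omega
  set b := Nat.findGreatest (fun i => P.A.valuation ((m i₁)⁻¹ * m i) = 1) e with hb
  have hbs : P.A.valuation ((m i₁)⁻¹ * m b) = 1 :=
    Nat.findGreatest_spec (P := fun i => P.A.valuation ((m i₁)⁻¹ * m i) = 1) hi₁e hv1
  refine ⟨i₁, hne₁, hmax', hle, Nat.find hex, b, Nat.find_min' hex hbs, Nat.findGreatest_le e,
    Nat.find_spec hex, hbs, fun i hi => lt_of_le_of_ne (hle i) (Nat.find_min hex hi),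
    fun i hi => ?_⟩
  by_cases hie : i ≤ e
  · exact lt_of_le_of_ne (hle i) (Nat.findGreatest_is_greatest hi hie)
  · rw [hzero i (by omega), mul_zero, map_zero]
    exact zero_lt_one

/-- Lemma A at infinity. -/
theorem newtonEnd [IsAlgClosed K] (P : Place K) {S : Finset R} (hS : ∀ s ∈ S, s ∈ 𝒜 1)
    (hgen : Algebra.adjoin ℂ (S : Set R) = ⊤) {ψ : R →ₐ[ℂ] K[X]} {e : ℕ} (hdeg : Deg 𝒜 e ψ)
    {y : R →ₐ[ℂ] K} (hy : NV 𝒜 y) (hend : Ends 𝒜 e ψ y) {m : ℕ → K} (hm : Max P S ψ m) {γ : K}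
    (hγ : γ ≠ 0) (h1 : ∀ i, P.A.valuation (γ * m i) ≤ 1) {b : ℕ} (hb : b ≤ e)
    (h2 : ∀ i, b < i → P.A.valuation (γ * m i) < 1) (h3 : P.A.valuation (γ * m b) = 1) :
    ∃ (δ : K) (y₀ q : R →ₐ[ℂ] P.k) (n : ℕ), (∀ d, ∀ h ∈ 𝒜 d, y₀ h = P.red (δ ^ d * y h)) ∧
      n ≤ e - b ∧ Ch 𝒜 P.k n y₀ q ∧
      ∃ c : P.k, c ≠ 0 ∧ ∀ d, ∀ h ∈ 𝒜 d, q h = c ^ d * P.red (γ ^ d * (ψ h).coeff (d * b)) := by
  have hm' : Max P S (rev 𝒜 hdeg) (fun i => if i ≤ e then m (e - i) else 0) := by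
    have key : ∀ i, ∀ s ∈ S, (rev 𝒜 hdeg s).coeff i =
        if i ≤ e then (ψ s).coeff (e - i) else 0 := by
      intro i s hs
      split_ifs with hi
      · rw [rev_coeff 𝒜 hdeg (hS s hs) (by omega), one_mul]
      · have h4 := rev_deg 𝒜 hdeg 1 s (hS s hs)
        exact coeff_eq_zero_of_natDegree_lt (by omega)
    constructor
    · intro i s hs
      rw [key i s hs]
      change _ ≤ P.A.valuation (if i ≤ e then m (e - i) else 0)
      split_ifs with hi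
      · exact hm.le (e - i) s hs
      · exact le_rfl
    · intro i
      obtain ⟨s, hs, hsm⟩ := hm.ex (e - i)
      refine ⟨s, hs, ?_⟩
      rw [key i s hs, hsm]
  obtain ⟨δ, y₀, q, n, -, hy₀, hn, hch, c, hc, hq⟩ := newtonFrom P hS hgen hy
    (rev_starts 𝒜 hdeg hend) hm' hγ (fun i => by
      change P.A.valuation (γ * if i ≤ e then m (e - i) else 0) ≤ 1
      split_ifs with hi
      · exact h1 _
      · rw [mul_zero, map_zero]
        exact zero_le) (a := e - b) (fun i hi => by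
      change P.A.valuation (γ * if i ≤ e then m (e - i) else 0) < 1
      rw [if_pos (by omega)]
      exact h2 _ (by omega)) (by
      change P.A.valuation (γ * if e - b ≤ e then m (e - (e - b)) else 0) = 1
      rw [if_pos (by omega), Nat.sub_sub_self hb]
      exact h3)
  refine ⟨δ, y₀, q, n, hy₀, hn, hch, c, hc, fun d h hh => ?_⟩
  rw [hq d h hh, rev_coeff 𝒜 hdeg hh (Nat.mul_le_mul_left d (Nat.sub_le e b))]
  congr 3
  rw [← Nat.mul_sub, Nat.sub_sub_self hb]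

/-- The coefficients of a solution over a place are integral. -/
theorem integral [IsAlgClosed K] (P : Place K) (hft : Algebra.FiniteType ℂ R)
    (hgen1 : Algebra.adjoin ℂ {h : R | h ∈ 𝒜 1} = ⊤) {S : Finset R} (hS : ∀ s ∈ S, s ∈ 𝒜 1)
    (hgen : Algebra.adjoin ℂ (S : Set R) = ⊤) {x : R →ₐ[ℂ] ℂ} {J : Set R} {e : ℕ}
    (hG : Good 𝒜 x J e) {θ : R →ₐ[ℂ] K} (hθ : ∀ s ∈ S, θ s ∈ P.A) {ψ : R →ₐ[ℂ] K[X]}
    (hψ : Sol 𝒜 x J e θ ψ) {m : ℕ → K} (hm : Max P S ψ m) (i : ℕ) :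
    P.A.valuation (m i) ≤ 1 := by
  by_contra hcon
  push Not at hcon
  have hmi : m i ≠ 0 := by
    rintro h0
    rw [h0, map_zero] at hcon
    exact absurd hcon (not_lt.2 zero_le)
  obtain ⟨i₁, hne₁, hmax, hle, a, b, hab, hbe, ha, hb, halt, hblt⟩ :=
    exists_window hS hψ.deg hm ⟨i, hmi⟩
  set γ := (m i₁)⁻¹ with hγdef
  have hγ : γ ≠ 0 := inv_ne_zero hne₁
  have hγv : P.A.valuation γ < 1 := by
    rw [hγdef, map_inv₀]
    exact inv_lt_one_of_one_lt₀ (lt_of_lt_of_le hcon (hmax i))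
  have hx' : NV 𝒜 ((Algebra.ofId ℂ K).comp x) := by
    obtain ⟨h, hh, hne⟩ := hG.nv
    exact ⟨h, hh, (map_ne_zero (algebraMap ℂ K)).2 hne⟩
  have hxk : NV 𝒜 ((Algebra.ofId ℂ P.k).comp x) := by
    obtain ⟨h, hh, hne⟩ := hG.nv
    exact ⟨h, hh, (map_ne_zero (algebraMap ℂ P.k)).2 hne⟩
  obtain ⟨y, hyn, hyJ, hyE⟩ := hψ.ends
  -- the two ends
  obtain ⟨δ, q₀, qa, n₁, hδ, hq₀, hn₁, hch₁, ca, hca, hqa⟩ := newtonFrom P hS hgen hx' hψ.starts
    hm hγ hle halt ha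
  obtain ⟨δ', y₀, qb, n₂, hy₀, hn₂, hch₂, cb, hcb, hqb⟩ := newtonEnd P hS hgen hψ.deg hyn hyE hm
    hγ hle hbe hblt hb
  -- the middle
  obtain ⟨φ, hφd, hφ⟩ := arc (𝒜 := 𝒜) hS hgen hm (γ := γ) (ρ := 1)
    (fun i => by rw [one_pow, mul_one]; exact hle i) hab
    (fun i hi => by rw [one_pow, mul_one]; exact halt i hi)
    (fun i hi => by rw [one_pow, mul_one]; exact hblt i hi)
  have hφ' : ∀ d, ∀ h ∈ 𝒜 d, ∀ i, (φ h).coeff i = P.red (γ ^ d * (ψ h).coeff (d * a + i)) := by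
    intro d h hh i
    rw [hφ d h hh, one_pow, one_mul]
  have hcoef : ∀ s ∈ S, ∀ j, P.A.valuation (γ * (ψ s).coeff j) ≤ P.A.valuation (γ * m j) := by
    intro s hs j
    rw [map_mul, map_mul]
    exact mul_le_mul_right (hm.le j s hs) _
  have hev : ∀ s ∈ S, (φ s).eval 1 = 0 := by
    intro s hs
    have h1 : (φ s).natDegree < b - a + 1 := by
      have := hφd 1 s (hS s hs)
      omega
    have h2 : (ψ s).natDegree < e + 1 := by
      have := hψ.deg 1 s (hS s hs)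
      omega
    have h3 : γ * θ s = ∑ j ∈ Finset.range (e + 1), γ * (ψ s).coeff j := by
      rw [← hψ.one s, eval_eq_sum_range' h2, Finset.mul_sum]
      refine Finset.sum_congr rfl fun j _ => ?_
      rw [one_pow, mul_one]
    have h4 : P.red (γ * θ s) = 0 := by
      apply P.red_eq_zero
      rw [map_mul]
      calc P.A.valuation γ * P.A.valuation (θ s) ≤ P.A.valuation γ * 1 :=
            mul_le_mul_right (P.mem_iff.1 (hθ s hs)) _
        _ < 1 := by rwa [mul_one]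
    rw [h3, P.red_sum _ _ fun j _ => P.mem_iff.2 ((hcoef s hs j).trans (hle j))] at h4
    rw [eval_eq_sum_range' h1]
    have h5 : ∑ j ∈ Finset.range (b - a + 1), (φ s).coeff j * 1 ^ j =
        ∑ j ∈ Finset.Ico a (b + 1), P.red (γ * (ψ s).coeff j) := by
      rw [Finset.sum_Ico_eq_sum_range]
      have : b + 1 - a = b - a + 1 := by omega
      rw [this]
      refine Finset.sum_congr rfl fun j _ => ?_
      rw [one_pow, mul_one, hφ' 1 s (hS s hs), pow_one, one_mul]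
    rw [h5, ← h4]
    refine Finset.sum_subset ?_ ?_
    · intro j hj
      have := Finset.mem_Ico.1 hj
      exact Finset.mem_range.2 (by omega)
    · intro j _ hj
      apply P.red_eq_zero
      refine lt_of_le_of_lt (hcoef s hs j) ?_
      rw [Finset.mem_Ico] at hj
      push Not at hj
      by_cases hja : a ≤ j
      · exact hblt j (by have := hj hja; omega)
      · exact halt j (by omega)
  have hst : Starts 𝒜 φ qa := by
    refine ⟨ca⁻¹, inv_ne_zero hca, fun d h hh => ?_⟩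
    rw [hφ' d h hh, add_zero, hqa d h hh, inv_aux hca]
  have hen : Ends 𝒜 (b - a) φ qb := by
    refine ⟨cb⁻¹, inv_ne_zero hcb, fun d h hh => ?_⟩
    have h7 : d * a + d * (b - a) = d * b := by
      rw [← mul_add]
      congr 1
      omega
    rw [hφ' d h hh, h7, hqb d h hh, inv_aux hcb]
  have hab' : 1 ≤ b - a := by
    by_contra h0
    have h0' : b - a = 0 := by omega
    obtain ⟨s, hs, hsm⟩ := hm.ex a
    have h1 := hev s hs
    have h2 : (φ s).natDegree < 1 := by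
      have := hφd 1 s (hS s hs)
      omega
    rw [eval_eq_sum_range' h2, Finset.sum_range_one, pow_zero, mul_one, hφ' 1 s (hS s hs),
      pow_one, one_mul, add_zero, hsm] at h1
    exact P.red_ne_zero ha h1
  obtain ⟨φ₁, -, hd₁, hs₁, he₁⟩ := exists_divide_X_sub_C 𝒜 hab' hφd (a := 1) one_ne_zero
    (dvd_of_gens (T := (S : Set R)) hS hgen φ fun s hs => dvd_iff_isRoot.2 (hev s hs))
  have hmid : Ch 𝒜 P.k (b - a - 1) qa qb := Ch.single 𝒜 (Ch.nv_right 𝒜 hch₁)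
    (Ch.nv_right 𝒜 hch₂) hd₁ (hs₁ qa hst) (he₁ qb hen)
  have htot := Ch.trans 𝒜 (Ch.trans 𝒜 hch₁ hmid) (Ch.symm 𝒜 hch₂)
  obtain ⟨y₁, ⟨c₁, hc₁, hy₁⟩, hch⟩ := scale_left htot hxk (start_const P hδ hq₀)
  have hyJ1 : ∀ h ∈ J, y₁ h = 0 := by
    intro h hh
    obtain ⟨d, hd⟩ := hG.hom h hh
    rw [hy₁ d h hd, hy₀ d h hd, hyJ h hh, mul_zero, P.red_zero, mul_zero]
  obtain ⟨y2, hy2, hy2J, hch2⟩ := spec_chain hft hgen1 (Ch.nv_right 𝒜 hch) hyJ1 hch
  have := hG.min _ y2 hy2 hy2J hch2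
  omega

end Vale.Agent.P280.S.H348
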